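import Mathlib

/-!
# P269: the numerical part of the degree-zero correlators

`ds F s` is the sum over the entries `x ≥ 1` of the multiset `s` of the value of `F` at `s` with
that entry lowered by one. `W e c` is the function of multisets determined by the string equation
with exceptional term `e` and by its values `c` at the multisets `{1, …, 1}`.
-/

namespace Vale.Agent.P269.H133

open Multiset

/-- the sum over the entries `x ≥ 1` of `s` of `F` at `s` with `x` replaced by `x - 1` -/
noncomputable def ds (F : Multiset ℕ → ℂ) (s : Multiset ℕ) : ℂ :=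
  (s.map fun x => if x = 0 then 0 else F ((x - 1) ::ₘ s.erase x)).sum

theorem ds_zero (F : Multiset ℕ → ℂ) : ds F 0 = 0 := by simp [ds]

theorem ds_cons (F : Multiset ℕ → ℂ) (x : ℕ) (s : Multiset ℕ) :
    ds F (x ::ₘ s) = (if x = 0 then 0 else F ((x - 1) ::ₘ s)) + ds (fun t => F (x ::ₘ t)) s := by
  unfold ds
  rw [map_cons, sum_cons, erase_cons_head]
  congr 2
  refine map_congr rfl fun y hy => ?_
  by_cases hy0 : y = 0
  · simp [hy0]
  · simp only [if_neg hy0]
    congr 1
    rw [cons_swap]
    congr 1
    by_cases hxy : x = y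
    · subst hxy
      rw [erase_cons_head, cons_erase hy]
    · rw [erase_cons_tail s (by simpa using hxy)]

theorem ds_congr {F G : Multiset ℕ → ℂ} {s : Multiset ℕ}
    (h : ∀ t : Multiset ℕ, card t = card s → F t = G t) : ds F s = ds G s := by
  unfold ds
  congr 1
  refine map_congr rfl fun y hy => ?_
  by_cases hy0 : y = 0
  · simp [hy0]
  · simp only [if_neg hy0]
    apply h
    rw [card_cons, card_erase_add_one hy]

theorem ds_add (F G : Multiset ℕ → ℂ) (s : Multiset ℕ) :
    ds (fun t => F t + G t) s = ds F s + ds G s := by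
  unfold ds
  rw [← sum_map_add]
  congr 1
  refine map_congr rfl fun y _ => ?_
  split_ifs <;> simp

theorem ds_smul (a : ℂ) (F : Multiset ℕ → ℂ) (s : Multiset ℕ) :
    ds (fun t => a * F t) s = a * ds F s := by
  unfold ds
  rw [← sum_map_mul_left]
  congr 1
  refine map_congr rfl fun y _ => ?_
  split_ifs <;> simp

theorem ds_eq_zero {F : Multiset ℕ → ℂ} {s : Multiset ℕ}
    (h : ∀ t : Multiset ℕ, card t = card s → t.sum + 1 = s.sum → F t = 0) : ds F s = 0 := by
  unfold ds
  apply sum_eq_zero
  intro z hz
  rw [mem_map] at hz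
  obtain ⟨y, hy, rfl⟩ := hz
  by_cases hy0 : y = 0
  · simp [hy0]
  · simp only [if_neg hy0]
    apply h
    · rw [card_cons, card_erase_add_one hy]
    · rw [sum_cons]
      have := sum_erase (s := s) hy
      omega

/-- auxiliary function for `W`, with the cardinality as fuel -/
noncomputable def Wn (e : Multiset ℕ → ℂ) (c : ℕ → ℂ) : ℕ → Multiset ℕ → ℂ
  | 0, _ => c 0
  | n + 1, s => if 0 ∈ s then ds (Wn e c n) (s.erase 0) + e (s.erase 0) else
      if ∀ x ∈ s, x = 1 then c (n + 1) else 0

/-- The function of multisets `s` with `W (0 ::ₘ s) = ds W s + e s`, with value `c n` at the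
multiset of `n` ones, and `0` at all other multisets without `0`. -/
noncomputable def W (e : Multiset ℕ → ℂ) (c : ℕ → ℂ) (s : Multiset ℕ) : ℂ := Wn e c (card s) s

variable (e : Multiset ℕ → ℂ) (c : ℕ → ℂ)

theorem W_nil : W e c 0 = c 0 := by simp [W, Wn]

theorem W_zero_cons (s : Multiset ℕ) : W e c (0 ::ₘ s) = ds (W e c) s + e s := by
  unfold W
  rw [card_cons, Wn, if_pos (mem_cons_self 0 s), erase_cons_head]
  congr 1
  apply ds_congr
  intro t ht
  rw [ht]

theorem W_ones (n : ℕ) : W e c (replicate n 1) = c n := by
  cases n with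
  | zero => simp [W_nil]
  | succ n =>
    unfold W
    rw [card_replicate, Wn, if_neg, if_pos]
    · intro x hx
      exact eq_of_mem_replicate hx
    · intro h
      exact absurd (eq_of_mem_replicate h) (by norm_num)

theorem W_other {s : Multiset ℕ} (h0 : 0 ∉ s) (h1 : ¬ ∀ x ∈ s, x = 1) : W e c s = 0 := by
  unfold W
  cases hn : card s with
  | zero =>
    rw [card_eq_zero] at hn
    subst hn
    exact absurd (by simp) h1
  | succ n => rw [Wn, if_neg h0, if_neg h1]

/-- induction on multisets by removing zeros -/
theorem zeros_induction {P : Multiset ℕ → Prop}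
    (h : ∀ n, (∀ s : Multiset ℕ, card s < n → P s) → ∀ s : Multiset ℕ, card s = n → P s)
    (s : Multiset ℕ) : P s := by
  have : ∀ n, ∀ s : Multiset ℕ, card s < n → P s := by
    intro n
    induction n with
    | zero => intro s hs; omega
    | succ n ih =>
      intro s hs
      rcases Nat.lt_or_ge (card s) n with h' | h'
      · exact ih s h'
      · exact h n ih s (by omega)
  exact this (card s + 1) s (by omega)

/-- the dilaton equation for `W` -/
theorem W_one_cons (a k : ℂ) (he : ∀ s, (a + card s) * e s = 0) (he1 : ∀ s, e (1 ::ₘ s) = 0)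
    (hc : ∀ n : ℕ, c (n + 1) = (a + n) * c n + if n = 0 then k else 0) (s : Multiset ℕ) :
    W e c (1 ::ₘ s) = (a + card s) * W e c s + if s = 0 then k else 0 := by
  refine zeros_induction (P := fun s => W e c (1 ::ₘ s) =
    (a + card s) * W e c s + if s = 0 then k else 0) ?_ s
  intro n ih s hs
  by_cases h0 : 0 ∈ s
  · obtain ⟨s, rfl⟩ := exists_cons_of_mem h0
    rw [cons_swap, W_zero_cons, ds_cons, if_neg one_ne_zero, he1, add_zero, Nat.sub_self]
    have h2 : ds (fun t => W e c (1 ::ₘ t)) s = (a + card s) * ds (W e c) s := by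
      by_cases hs0 : s = 0
      · subst hs0
        simp [ds_zero]
      · rw [← ds_smul]
        apply ds_congr
        intro t ht
        have ht0 : t ≠ 0 := by
          rintro rfl
          simp only [card_zero] at ht
          exact hs0 (card_eq_zero.mp ht.symm)
        rw [ih t (by rw [ht, ← hs, card_cons]; omega), if_neg ht0, add_zero, ht]
    rw [h2, if_neg (cons_ne_zero), W_zero_cons, card_cons]
    push_cast
    linear_combination (-1 : ℂ) * he s
  · by_cases h1 : ∀ x ∈ s, x = 1
    · have hs' : s = replicate (card s) 1 := eq_replicate_card.mpr h1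
      rw [hs', ← replicate_succ, W_ones, W_ones, card_replicate, hc]
      congr 1
      by_cases hc0 : card s = 0
      · simp [hc0]
      · rw [if_neg hc0, if_neg]
        rw [← hs']
        exact fun h => hc0 (by simp [h])
    · have hne : s ≠ 0 := by
        rintro rfl
        exact h1 (by simp)
      rw [W_other e c h0 h1, if_neg hne, mul_zero, add_zero]
      apply W_other
      · simp only [mem_cons, not_or]
        exact ⟨by norm_num, h0⟩
      · intro h
        exact h1 fun x hx => h x (mem_cons_of_mem hx)

/-- the dimension constraint for `W` -/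
theorem W_dim (δ : ℤ) (he : ∀ s, e s ≠ 0 → (s.sum : ℤ) = card s + 1 + δ)
    (hc : ∀ n, c n ≠ 0 → δ = 0) (s : Multiset ℕ) (h : W e c s ≠ 0) :
    (s.sum : ℤ) = card s + δ := by
  revert h
  refine zeros_induction (P := fun s => W e c s ≠ 0 → (s.sum : ℤ) = card s + δ) ?_ s
  intro n ih s hs hW
  by_cases h0 : 0 ∈ s
  · obtain ⟨s, rfl⟩ := exists_cons_of_mem h0
    rw [W_zero_cons] at hW
    by_cases hes : e s = 0
    · rw [hes, add_zero] at hW
      by_contra hcon
      apply hW
      apply ds_eq_zero
      intro t ht hts
      by_contra hWt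
      have := ih t (by rw [ht, ← hs, card_cons]; omega) hWt
      apply hcon
      have e1 : (0 ::ₘ s).sum = s.sum := by rw [sum_cons, zero_add]
      have e2 : card (0 ::ₘ s) = card s + 1 := card_cons 0 s
      rw [ht] at this
      omega
    · have := he s hes
      have e1 : (0 ::ₘ s).sum = s.sum := by rw [sum_cons, zero_add]
      have e2 : card (0 ::ₘ s) = card s + 1 := card_cons 0 s
      omega
  · by_cases h1 : ∀ x ∈ s, x = 1
    · have hs' : s = replicate (card s) 1 := eq_replicate_card.mpr h1
      rw [hs', W_ones] at hW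
      have := hc _ hW
      rw [hs', sum_replicate, card_replicate]
      simp [this]
    · exact absurd (W_other e c h0 h1) hW

end Vale.Agent.P269.H133
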