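import Vale.Agent.P269.H727.Basic
import Vale.Agent.P269.H133.W
import Vale.Agent.P269.IntData

/-!
# P269: correlators of the form (number depending on the `m_i`) × (integral of the classes)
-/

namespace Vale.Agent.P269.H133

open Vale.Agent.P269 Cohomology

variable {X : Cohomology}

/-- the multiset of the descendant indices of a list of insertions -/
def ms (l : List X.Ins) : Multiset ℕ := (l.map Prod.fst : List ℕ)

@[simp] theorem ms_nil : ms ([] : List X.Ins) = 0 := rfl

@[simp] theorem ms_cons (x : X.Ins) (l : List X.Ins) : ms (x :: l) = x.1 ::ₘ ms l := rfl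

@[simp] theorem ms_append (l l' : List X.Ins) : ms (l ++ l') = ms l + ms l' := by
  simp [ms]

@[simp] theorem card_ms (l : List X.Ins) : Multiset.card (ms l) = l.length := by simp [ms]

theorem ms_sum (l : List X.Ins) : (ms l).sum = (l.map Prod.fst).sum := by simp [ms]

theorem ms_eq_zero {l : List X.Ins} : ms l = 0 ↔ l = [] := by
  constructor
  · intro h
    have := congrArg Multiset.card h
    simpa using this
  · rintro rfl
    rfl

/-- `W` of the descendant indices times `J` of the classes -/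
noncomputable def tens (W : Multiset ℕ → ℂ) (J : List X.I → ℂ) (l : List X.Ins) : ℂ :=
  W (ms l) * J (l.map Prod.snd)

theorem tens_cons (W : Multiset ℕ → ℂ) (J : List X.I → ℂ) (x : X.Ins) (l : List X.Ins) :
    tens W J (x :: l) = tens (fun t => W (x.1 ::ₘ t)) (fun a => J (x.2 :: a)) l := rfl

/-- A functional of lists of classes with the formal properties of
`l ↦ ∫_X v ∪ φ_{l_1} ∪ ⋯ ∪ φ_{l_n}` for a class `v` of Hodge type `(D-r, D-r)`. -/
structure JData (X : Cohomology) where
  /-- the functional -/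
  J : List X.I → ℂ
  /-- `D` minus the degree of `v` -/
  r : ℕ
  swap : ∀ l₁ a b l₂, J (l₁ ++ a :: b :: l₂) =
    (-1) ^ ((X.p a + X.q a) * (X.p b + X.q b)) * J (l₁ ++ b :: a :: l₂)
  one : ∀ l, J (X.one :: l) = J l
  deg : ∀ l, J l ≠ 0 → (l.map X.p).sum = r ∧ (l.map X.q).sum = r
  c1 : ∀ l₁ a l₂, ∑ b, X.R a b * J (l₁ ++ b :: l₂) =
    ∑ b, X.R X.one b * J (b :: (l₁ ++ a :: l₂))

/-- the functional `l ↦ ∑_b v b ∫_X φ_{l_1} ∪ ⋯ ∪ φ_{l_n} ∪ φ_b` -/
noncomputable def IntData.cap (A : IntData X) (v : X.I → ℂ) (r : ℕ) (hr : r ≤ X.D)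
    (hv : ∀ b, v b ≠ 0 → X.p b = X.D - r ∧ X.q b = X.D - r) : JData X where
  J l := ∑ b, v b * A.int (l ++ [b])
  r := r
  swap l₁ a b l₂ := by
    rw [Finset.mul_sum]
    refine Finset.sum_congr rfl fun c _ => ?_
    have := A.swap l₁ a b (l₂ ++ [c])
    simp only [List.append_assoc, List.cons_append] at this ⊢
    rw [this]
    ring
  one l := by simp only [List.cons_append, A.one]
  deg l h := by
    obtain ⟨b, -, hb⟩ := Finset.exists_ne_zero_of_sum_ne_zero h
    obtain ⟨h1, h2⟩ := hv b (left_ne_zero_of_mul hb)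
    have h3 := A.deg _ (right_ne_zero_of_mul hb)
    simp only [List.map_append, List.map_cons, List.map_nil, List.sum_append, List.sum_cons,
      List.sum_nil, add_zero] at h3
    omega
  c1 l₁ a l₂ := by
    simp only [Finset.mul_sum]
    rw [Finset.sum_comm]
    conv_rhs => rw [Finset.sum_comm]
    refine Finset.sum_congr rfl fun c _ => ?_
    have := congrArg (fun z => v c * z) (A.c1 l₁ a (l₂ ++ [c]))
    simp only [Finset.mul_sum, List.append_assoc, List.cons_append] at this ⊢
    calc _ = ∑ i, v c * (X.R a i * A.int (l₁ ++ i :: (l₂ ++ [c]))) :=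
          Finset.sum_congr rfl fun i _ => by ring
      _ = _ := this
      _ = _ := Finset.sum_congr rfl fun i _ => by ring

/-- `l ↦ ∫_X φ_{l_1} ∪ ⋯ ∪ φ_{l_n}` -/
def IntData.toJ (A : IntData X) : JData X where
  J := A.int
  r := X.D
  swap := A.swap
  one := A.one
  deg := A.deg
  c1 := A.c1

theorem tens_swap (W : Multiset ℕ → ℂ) (A : JData X) (l₁ : List X.Ins) (x y : X.Ins)
    (l₂ : List X.Ins) : tens W A.J (l₁ ++ x :: y :: l₂) =
      (-1) ^ (X.par x * X.par y) * tens W A.J (l₁ ++ y :: x :: l₂) := by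
  have h1 : ms (l₁ ++ x :: y :: l₂) = ms (l₁ ++ y :: x :: l₂) := by
    rw [ms_append, ms_append, ms_cons, ms_cons, ms_cons, ms_cons, Multiset.cons_swap]
  simp only [tens, h1, List.map_append, List.map_cons, par]
  rw [A.swap]
  ring

theorem tens_dim (W : Multiset ℕ → ℂ) (A : JData X) (δ : ℤ)
    (hW : ∀ s, W s ≠ 0 → (s.sum : ℤ) = Multiset.card s + δ) (f : X.I → ℕ)
    (hf : ∀ l, A.J l ≠ 0 → (l.map f).sum = A.r) (l : List X.Ins) (h : tens W A.J l ≠ 0) :
    (l.map fun x => (x.1 + f x.2 : ℤ)).sum = δ + A.r + l.length := by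
  have h1 := hW _ (left_ne_zero_of_mul h)
  have h2 := hf _ (right_ne_zero_of_mul h)
  rw [card_ms, ms_sum] at h1
  have h3 : (l.map fun x => (x.1 + f x.2 : ℤ)).sum =
      (((l.map Prod.fst).sum : ℕ) : ℤ) + ((((l.map Prod.snd).map f).sum : ℕ) : ℤ) := by
    clear h h1 h2
    induction l with
    | nil => simp
    | cons x l ih =>
      simp only [List.map_cons, List.sum_cons, ih]
      push_cast
      ring
  rw [h3, h1, h2]
  ring

theorem derive_low_tens (W : Multiset ℕ → ℂ) (J : List X.I → ℂ) (l : List X.Ins) :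
    X.derive X.low (tens W J) l = ds W (ms l) * J (l.map Prod.snd) := by
  induction l generalizing W J with
  | nil => simp [derive_nil, ds_zero]
  | cons x l ih =>
    rw [derive_cons]
    have : (fun l' => tens W J (x :: l')) =
        tens (fun t => W (x.1 ::ₘ t)) (fun a => J (x.2 :: a)) := rfl
    rw [this, ih, ms_cons, ds_cons, add_mul]
    simp only [List.map_cons]
    congr 1
    unfold low
    split_ifs
    · simp
    · simp [tens]

theorem derive_lowR_tens (W : Multiset ℕ → ℂ) (J : List X.I → ℂ) (l : List X.Ins) (C : ℂ)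
    (h : ∀ l₁ x l₂, l = l₁ ++ x :: l₂ →
      ∑ b, X.R x.2 b * J (l₁.map Prod.snd ++ b :: l₂.map Prod.snd) = C) :
    X.derive X.lowR (tens W J) l = ds W (ms l) * C := by
  induction l generalizing W J with
  | nil => simp [derive_nil, ds_zero]
  | cons x l ih =>
    rw [derive_cons]
    have h1 : (fun l' => tens W J (x :: l')) =
        tens (fun t => W (x.1 ::ₘ t)) (fun a => J (x.2 :: a)) := rfl
    rw [h1, ih, ms_cons, ds_cons, add_mul]
    · congr 1
      unfold lowR
      split_ifs
      · simp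
      · rw [← h [] x l rfl, Finset.mul_sum]
        refine Finset.sum_congr rfl fun b _ => ?_
        simp [tens]
        ring
    · intro l₁ y l₂ hl
      have := h (x :: l₁) y l₂ (by rw [hl]; rfl)
      simpa using this

/-- the functional `l ↦ ∫_X v ∪ c_1(TX) ∪ φ_{l_1} ∪ ⋯ ∪ φ_{l_n}` -/
noncomputable def JData.Jc1 (A : JData X) (l : List X.I) : ℂ := ∑ b, X.R X.one b * A.J (b :: l)

theorem derive_lowR_tens' (W : Multiset ℕ → ℂ) (A : JData X) (l : List X.Ins) :
    X.derive X.lowR (tens W A.J) l = ds W (ms l) * A.Jc1 (l.map Prod.snd) := by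
  apply derive_lowR_tens
  intro l₁ x l₂ hl
  rw [A.c1, JData.Jc1, hl]
  simp

variable (e : Multiset ℕ → ℂ) (c : ℕ → ℂ)

theorem tens_string (A : JData X) (l : List X.Ins) :
    tens (W e c) A.J ((0, X.one) :: l) = X.derive X.low (tens (W e c) A.J) l +
      e (ms l) * A.J (l.map Prod.snd) := by
  rw [derive_low_tens, tens, ms_cons, W_zero_cons, List.map_cons, A.one]
  ring

theorem tens_dilaton (A : JData X) (a k : ℂ) (he : ∀ s, (a + Multiset.card s) * e s = 0)
    (he1 : ∀ s, e (1 ::ₘ s) = 0)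
    (hc : ∀ n : ℕ, c (n + 1) = (a + n) * c n + if n = 0 then k else 0) (l : List X.Ins) :
    tens (W e c) A.J ((1, X.one) :: l) = (a + l.length) * tens (W e c) A.J l +
      if l = [] then k * A.J [] else 0 := by
  rw [tens, ms_cons, W_one_cons e c a k he he1 hc, List.map_cons, A.one, card_ms, tens]
  by_cases hl : l = []
  · subst hl
    simp
    ring
  · rw [if_neg hl, if_neg (by rwa [ms_eq_zero])]
    ring

theorem tens_divisor (A : JData X) (l : List X.Ins) :
    ∑ b, X.R X.one b * tens (W e c) A.J ((0, b) :: l) =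
      X.derive X.lowR (tens (W e c) A.J) l + e (ms l) * A.Jc1 (l.map Prod.snd) := by
  rw [derive_lowR_tens', ← add_mul, ← W_zero_cons, JData.Jc1, Finset.mul_sum]
  refine Finset.sum_congr rfl fun b _ => ?_
  simp [tens]
  ring

end Vale.Agent.P269.H133
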