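import Vale.Agent.P269.H727.Str
import Vale.Agent.P269.H133.Tensor

/-!
# P269: the degree-zero correlators in positive genus
-/

namespace Vale.Agent.P269.H133

open Vale.Agent.P269 Cohomology

variable {X : Cohomology}

/-- The classes `c_{D-1}(TX)` and the degree-zero constants in genus `≥ 2` -/
structure PosData (X : Cohomology) where
  /-- `c_{D-1}(TX) = ∑_b v b φ_b` -/
  v : X.I → ℂ
  v_deg : ∀ b, v b ≠ 0 → X.p b = X.D - 1 ∧ X.q b = X.D - 1
  /-- the degree-zero invariants `⟨⟩_{g,0}`, `g ≥ 2`, of a threefold -/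
  N : ℕ → ℂ

/-- the coefficients of the class of a point -/
noncomputable def pt (X : Cohomology) (b : X.I) : ℂ := X.η⁻¹ X.one b

theorem pt_deg (b : X.I) (h : pt X b ≠ 0) : X.p b = X.D - 0 ∧ X.q b = X.D - 0 := by
  have := X.η_inv_deg _ _ h
  rw [X.p_one, X.q_one] at this
  omega

/-- `l ↦ ∫_X [pt] ∪ φ_{l_1} ∪ ⋯` -/
noncomputable def Jpt (A : IntData X) : JData X := IntData.cap A (pt X) 0 (Nat.zero_le _) pt_deg

/-- `l ↦ ∫_X c_{D-1}(TX) ∪ φ_{l_1} ∪ ⋯` -/
noncomputable def Jc (A : IntData X) (P : PosData X) (hD : 1 ≤ X.D) : JData X :=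
  IntData.cap A P.v 1 hD P.v_deg

theorem Jpt_nil (A : IntData X) : (Jpt A).J [] = 1 := by
  have h1 : ∀ b, A.int [b] = X.η b X.one := by
    intro b
    rw [← A.one, A.two, X.η_symm b X.one]
    simp [X.p_one, X.q_one]
  simp only [Jpt, IntData.cap, List.nil_append, h1, pt]
  rw [X.η_inv_mul]
  simp

theorem Jpt_Jc1 (A : IntData X) (l : List X.I) : (Jpt A).Jc1 l = 0 := by
  unfold JData.Jc1
  refine Finset.sum_eq_zero fun b _ => ?_
  by_contra h
  have h1 := X.R_deg _ _ (left_ne_zero_of_mul h)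
  have h2 := (Jpt A).deg _ (right_ne_zero_of_mul h)
  have h3 : (Jpt A).r = 0 := rfl
  simp only [List.map_cons, List.sum_cons, h3] at h2
  omega

/-- the values at `{1, …, 1}` of the descendant integrals over `\bar M_{1,n}` -/
noncomputable def c1n (n : ℕ) : ℂ := if n = 0 then 0 else ((n - 1).factorial : ℂ) / 24

/-- `W1 {m_1, …, m_n} = ∫ ψ_1^{m_1} ⋯ ψ_n^{m_n}` over `\bar M_{1,n}` -/
noncomputable def W1 : Multiset ℕ → ℂ := W (fun _ => 0) c1n

/-- `L1 {m_1, …, m_n} = 24 ∫ λ_1 ψ_1^{m_1} ⋯ ψ_n^{m_n}` over `\bar M_{1,n}` -/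
noncomputable def L1 : Multiset ℕ → ℂ := W (fun s => if s = 0 then 1 else 0) (fun _ => 0)

/-- the values at `{1, …, 1}` of `Wg` -/
noncomputable def cgn (g n : ℕ) : ℂ := ∏ i ∈ Finset.range n, ((2 * g - 2 : ℂ) + i)

/-- `Wg g {m_1, …, m_n} = ∫ ψ_1^{m_1} ⋯ ψ_n^{m_n}` over a fibre of `\bar M_{g,n} → \bar M_g` -/
noncomputable def Wg (g : ℕ) : Multiset ℕ → ℂ := W (fun _ => 0) (cgn g)

/-- the degree-zero correlators in genus `g ≥ 1` -/
noncomputable def corrPos (A : IntData X) (P : PosData X) (hD : 1 ≤ X.D) (g : ℕ)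
    (l : List X.Ins) : ℂ :=
  if g = 1 then X.χ * tens W1 (Jpt A).J l - 1 / 24 * tens L1 (Jc A P hD).J l
  else if X.D = 3 then P.N g * tens (Wg g) (Jpt A).J l else 0

variable (A : IntData X) (P : PosData X) (hD : 1 ≤ X.D)

theorem corrPos_swap (g : ℕ) (l₁ : List X.Ins) (x y : X.Ins) (l₂ : List X.Ins) :
    corrPos A P hD g (l₁ ++ x :: y :: l₂) =
      (-1) ^ (X.par x * X.par y) * corrPos A P hD g (l₁ ++ y :: x :: l₂) := by
  unfold corrPos
  split_ifs
  · rw [tens_swap, tens_swap L1]
    ring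
  · rw [tens_swap]
    ring
  · simp

theorem W1_dim (s : Multiset ℕ) (h : W1 s ≠ 0) : (s.sum : ℤ) = Multiset.card s + 0 :=
  W_dim _ _ 0 (fun _ h => absurd rfl h) (fun _ _ => rfl) s h

theorem Wg_dim (g : ℕ) (s : Multiset ℕ) (h : Wg g s ≠ 0) : (s.sum : ℤ) = Multiset.card s + 0 :=
  W_dim _ _ 0 (fun _ h => absurd rfl h) (fun _ _ => rfl) s h

theorem L1_dim (s : Multiset ℕ) (h : L1 s ≠ 0) : (s.sum : ℤ) = Multiset.card s + (-1) := by
  refine W_dim _ _ (-1) (fun t ht => ?_) (fun _ h => absurd rfl h) s h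
  have : t = 0 := by
    by_contra h'
    simp [h'] at ht
  simp [this]

theorem corrPos_dim (g : ℕ) (hg : g ≠ 0) (f : X.I → ℕ)
    (hf0 : ∀ l, (Jpt A).J l ≠ 0 → (l.map f).sum = 0)
    (hf1 : ∀ l, (Jc A P hD).J l ≠ 0 → (l.map f).sum = 1)
    (l : List X.Ins) (h : corrPos A P hD g l ≠ 0) :
    (l.map fun x => (x.1 + f x.2 : ℤ)).sum = (1 - g) * (X.D - 3) + l.length := by
  unfold corrPos at h
  split_ifs at h with h1 h3
  · subst h1
    by_cases h2 : tens W1 (Jpt A).J l = 0
    · have h3 : tens L1 (Jc A P hD).J l ≠ 0 := by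
        intro h3
        rw [h2, h3] at h
        simp at h
      have h4 := tens_dim L1 (Jc A P hD) (-1) L1_dim f hf1 l h3
      have h5 : ((Jc A P hD).r : ℤ) = 1 := rfl
      rw [h4, h5]
      push_cast
      ring
    · have h4 := tens_dim W1 (Jpt A) 0 W1_dim f hf0 l h2
      have h5 : ((Jpt A).r : ℤ) = 0 := rfl
      rw [h4, h5]
      push_cast
      ring
  · have h4 := tens_dim (Wg g) (Jpt A) 0 (Wg_dim g) f hf0 l (right_ne_zero_of_mul h)
    have h5 : ((Jpt A).r : ℤ) = 0 := rfl
    rw [h4, h5, h3]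
    push_cast
    ring
  · exact absurd rfl h

theorem corrPos_string (g : ℕ) (hg : g ≠ 0) (l : List X.Ins) :
    corrPos A P hD g ((0, X.one) :: l) = X.derive X.low (corrPos A P hD g) l := by
  have hs1 : tens W1 (Jpt A).J ((0, X.one) :: l) = ds W1 (ms l) * (Jpt A).J (l.map Prod.snd) := by
    rw [W1, tens_string, derive_low_tens]
    simp
  have hsg : tens (Wg g) (Jpt A).J ((0, X.one) :: l) =
      ds (Wg g) (ms l) * (Jpt A).J (l.map Prod.snd) := by
    rw [Wg, tens_string, derive_low_tens]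
    simp
  have hs2 : tens L1 (Jc A P hD).J ((0, X.one) :: l) =
      ds L1 (ms l) * (Jc A P hD).J (l.map Prod.snd) := by
    rw [L1, tens_string, derive_low_tens]
    by_cases hl : ms l = 0
    · have hl' : l = [] := ms_eq_zero.mp hl
      subst hl'
      have : (Jc A P hD).J [] = 0 := by
        by_contra h
        have := (Jc A P hD).deg _ h
        have h5 : (Jc A P hD).r = 1 := rfl
        rw [h5] at this
        simp at this
      simp [this]
    · simp [hl]
  unfold corrPos
  by_cases h1 : g = 1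
  · subst h1
    simp only [if_true]
    rw [hs1, hs2]
    have : (fun l => X.χ * tens W1 (Jpt A).J l - 1 / 24 * tens L1 (Jc A P hD).J l) =
      fun l => X.χ * tens W1 (Jpt A).J l + (-(1 / 24)) * tens L1 (Jc A P hD).J l := by
      funext l
      ring
    rw [this, derive_add low_even, derive_smul low_even, derive_smul low_even,
      derive_low_tens, derive_low_tens]
    ring
  · simp only [if_neg h1]
    by_cases h3 : X.D = 3
    · simp only [if_pos h3]
      rw [hsg, derive_smul low_even, derive_low_tens]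
    · simp only [if_neg h3]
      rw [derive_zero low_even]

theorem corrPos_dilaton (g : ℕ) (hg : g ≠ 0) (l : List X.Ins) :
    corrPos A P hD g ((1, X.one) :: l) = (2 * g - 2 + l.length) * corrPos A P hD g l +
      if g = 1 ∧ l = [] then X.χ / 24 else 0 := by
  have hd1 : tens W1 (Jpt A).J ((1, X.one) :: l) = (0 + l.length) * tens W1 (Jpt A).J l +
      if l = [] then 1 / 24 * (Jpt A).J [] else 0 := by
    refine tens_dilaton _ _ _ 0 (1 / 24) (by simp) (by simp) (fun n => ?_) l
    unfold c1n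
    rcases n with _ | n
    · simp
    · simp only [Nat.add_eq_zero_iff, one_ne_zero, and_false, if_false, Nat.add_sub_cancel,
        Nat.factorial_succ]
      push_cast
      ring
  have hd2 : tens L1 (Jc A P hD).J ((1, X.one) :: l) =
      (0 + l.length) * tens L1 (Jc A P hD).J l +
      if l = [] then 0 * (Jc A P hD).J [] else 0 := by
    refine tens_dilaton _ _ _ 0 0 (fun s => ?_) (by simp) (by simp) l
    by_cases hs : s = 0
    · simp [hs]
    · simp [hs]
  have hdg : tens (Wg g) (Jpt A).J ((1, X.one) :: l) =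
      ((2 * g - 2 : ℂ) + l.length) * tens (Wg g) (Jpt A).J l +
      if l = [] then 0 * (Jpt A).J [] else 0 := by
    refine tens_dilaton _ _ _ _ 0 (by simp) (by simp) (fun n => ?_) l
    unfold cgn
    rw [Finset.prod_range_succ]
    simp
    ring
  unfold corrPos
  by_cases h1 : g = 1
  · subst h1
    simp only [if_true, true_and]
    rw [hd1, hd2, Jpt_nil]
    split_ifs <;> push_cast <;> ring
  · simp only [if_neg h1]
    by_cases h3 : X.D = 3
    · simp only [if_pos h3]
      rw [hdg]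
      split_ifs with h4 h5 h5
      · exact absurd h5.1 h1
      · ring
      · exact absurd h5.1 h1
      · ring
    · simp [h1, h3]

/-- the number `∫_X c_1(TX) ∪ c_{D-1}(TX)` -/
noncomputable def c1cD (A : IntData X) (P : PosData X) (hD : 1 ≤ X.D) : ℂ := (Jc A P hD).Jc1 []

theorem corrPos_divisor (g : ℕ) (hg : g ≠ 0) (l : List X.Ins) :
    ∑ b, X.R X.one b * corrPos A P hD g ((0, b) :: l) =
      X.derive X.lowR (corrPos A P hD g) l -
      if g = 1 ∧ l = [] then c1cD A P hD / 24 else 0 := by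
  unfold corrPos
  by_cases h1 : g = 1
  · subst h1
    simp only [if_true, true_and]
    have hv1 := tens_divisor (fun _ => 0) c1n (Jpt A) l
    have hv2 := tens_divisor (fun s => if s = 0 then 1 else 0) (fun _ => 0) (Jc A P hD) l
    have : (fun l => X.χ * tens W1 (Jpt A).J l - 1 / 24 * tens L1 (Jc A P hD).J l) =
      fun l => X.χ * tens W1 (Jpt A).J l + (-(1 / 24)) * tens L1 (Jc A P hD).J l := by
      funext l
      ring
    rw [this, derive_add lowR_even, derive_smul lowR_even, derive_smul lowR_even]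
    have e1 : ∑ b, X.R X.one b * (X.χ * tens W1 (Jpt A).J ((0, b) :: l) -
        1 / 24 * tens L1 (Jc A P hD).J ((0, b) :: l)) =
        X.χ * (∑ b, X.R X.one b * tens W1 (Jpt A).J ((0, b) :: l)) -
        1 / 24 * ∑ b, X.R X.one b * tens L1 (Jc A P hD).J ((0, b) :: l) := by
      rw [Finset.mul_sum, Finset.mul_sum, ← Finset.sum_sub_distrib]
      exact Finset.sum_congr rfl fun b _ => by ring
    rw [e1]
    change X.χ * (∑ b, X.R X.one b * tens (W (fun _ => 0) c1n) (Jpt A).J ((0, b) :: l)) -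
        1 / 24 * ∑ b, X.R X.one b * tens (W (fun s => if s = 0 then 1 else 0) (fun _ => 0))
          (Jc A P hD).J ((0, b) :: l) = _
    rw [hv1, hv2]
    unfold W1 L1
    by_cases hl : l = []
    · subst hl
      simp [c1cD]
      ring
    · have hl' : ms l ≠ 0 := by rwa [ne_eq, ms_eq_zero]
      simp [hl, hl']
      ring
  · simp only [if_neg h1]
    by_cases h3 : X.D = 3
    · simp only [if_pos h3]
      rw [derive_smul lowR_even]
      have hv := tens_divisor (fun _ => 0) (cgn g) (Jpt A) l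
      have e1 : ∑ b, X.R X.one b * (P.N g * tens (Wg g) (Jpt A).J ((0, b) :: l)) =
          P.N g * ∑ b, X.R X.one b * tens (Wg g) (Jpt A).J ((0, b) :: l) := by
        rw [Finset.mul_sum]
        exact Finset.sum_congr rfl fun b _ => by ring
      rw [e1]
      change P.N g * (∑ b, X.R X.one b * tens (W (fun _ => 0) (cgn g)) (Jpt A).J ((0, b) :: l)) = _
      rw [hv]
      simp [h1, Wg]
    · simp only [if_neg h3]
      rw [derive_zero lowR_even]
      simp [h1]

end Vale.Agent.P269.H133
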