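import Vale.Agent.P269.H728.Inhab0
import Vale.Agent.P269.H133.Pos

/-!
# P269: the degree-zero Gromov-Witten theory satisfies all the properties of `GWTheory`
-/

namespace Vale.Agent.P269.H133

open Vale.Agent.P269 Cohomology

variable {X : Cohomology}

/-- The degree-zero correlators: genus `0` by the multinomial formula, positive genus by
`corrPos`. -/
noncomputable def corrZ (A : IntData X) (P : PosData X) (hD : 1 ≤ X.D) (g : ℕ)
    (l : List X.Ins) : ℂ :=
  if g = 0 then A.corr0 l else corrPos A P hD g l

variable (A : IntData X) (P : PosData X) (hD : 1 ≤ X.D)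

theorem corrPos_one_nil : corrPos A P hD 1 [] = 0 := by
  have h1 : (Jc A P hD).J [] = 0 := by
    by_contra h
    have := (Jc A P hD).deg _ h
    have h5 : (Jc A P hD).r = 1 := rfl
    rw [h5] at this
    simp at this
  simp [corrPos, tens, W1, W_nil, c1n, h1]

theorem add_eq_zero_nat {d : ℕ} (hd : d ≠ 0) (dd : ℕ × ℕ)
    (h : dd ∈ Finset.HasAntidiagonal.antidiagonal d) : dd.1 ≠ 0 ∨ dd.2 ≠ 0 := by
  rw [Finset.HasAntidiagonal.mem_antidiagonal] at h
  omega

/-- The Gromov-Witten theory with degree-zero part `corrZ` and no other invariants. -/
noncomputable def degZero (c : ℕ →+ ℤ) : GWTheory X ℕ where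
  c1 := c
  c1cD := c1cD A P hD
  corr g d l := if d = 0 then corrZ A P hD g l else 0
  swap g d l₁ x y l₂ := by
    split_ifs
    · unfold corrZ
      split_ifs
      · exact A.corr0_swap l₁ x y l₂
      · exact corrPos_swap A P hD g l₁ x y l₂
    · simp
  unstable g l h := by
    rw [if_pos rfl]
    unfold corrZ
    split_ifs with hg
    · exact A.corr0_unstable l (by omega)
    · have hg1 : g = 1 := by omega
      have hl : l = [] := by
        rw [← List.length_eq_zero_iff]
        omega
      subst hg1 hl
      exact corrPos_one_nil A P hD
  dim_p g d l h := by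
    have hd : d = 0 := by
      by_contra hd
      exact h (if_neg hd)
    subst hd
    rw [if_pos rfl] at h
    unfold corrZ at h
    rw [map_zero, add_zero]
    by_cases hg : g = 0
    · subst hg
      rw [if_pos rfl] at h
      rw [A.corr0_dim_p l h]
      push_cast
      ring
    · rw [if_neg hg] at h
      exact corrPos_dim A P hD g hg X.p (fun l hl => ((Jpt A).deg l hl).1)
        (fun l hl => ((Jc A P hD).deg l hl).1) l h
  dim_q g d l h := by
    have hd : d = 0 := by
      by_contra hd
      exact h (if_neg hd)
    subst hd
    rw [if_pos rfl] at h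
    unfold corrZ at h
    rw [map_zero, add_zero]
    by_cases hg : g = 0
    · subst hg
      rw [if_pos rfl] at h
      rw [A.corr0_dim_q l h]
      push_cast
      ring
    · rw [if_neg hg] at h
      exact corrPos_dim A P hD g hg X.q (fun l hl => ((Jpt A).deg l hl).2)
        (fun l hl => ((Jc A P hD).deg l hl).2) l h
  string g d l := by
    by_cases hd : d = 0
    · subst hd
      by_cases hg : g = 0
      · subst hg
        simp only [if_true, corrZ, true_and]
        exact A.corr0_string l
      · simp only [if_true, corrZ, if_neg hg]
        rw [corrPos_string A P hD g hg]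
        simp [hg]
    · simp only [if_neg hd]
      rw [derive_zero low_even]
      simp [hd]
  dilaton g d l := by
    by_cases hd : d = 0
    · subst hd
      by_cases hg : g = 0
      · subst hg
        simp only [if_true, corrZ]
        rw [A.corr0_dilaton]
        simp only [Nat.cast_zero, mul_zero, zero_sub, zero_ne_one, false_and, if_false, add_zero]
        ring
      · simp only [if_true, corrZ, if_neg hg]
        rw [corrPos_dilaton A P hD g hg]
        simp
    · simp [hd]
  divisor g d l := by
    by_cases hd : d = 0
    · subst hd
      by_cases hg : g = 0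
      · subst hg
        simp only [if_true, corrZ]
        rw [A.corr0_divisor]
        simp
      · simp only [if_true, corrZ, if_neg hg]
        rw [corrPos_divisor A P hD g hg]
        simp [hg]
    · simp only [if_neg hd]
      rw [derive_zero lowR_even]
      simp [hd]
  trr d m a l x y := by
    by_cases hd : d = 0
    · subst hd
      simp only [if_true, corrZ]
      rw [A.corr0_trr]
      have : Finset.HasAntidiagonal.antidiagonal (0 : ℕ) = {(0, 0)} := by
        ext dd
        rw [Finset.HasAntidiagonal.mem_antidiagonal, Finset.mem_singleton, Prod.ext_iff]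
        simp
      rw [this, Finset.sum_singleton]
      simp
    · rw [if_neg hd]
      symm
      refine Finset.sum_eq_zero fun dd hdd => Finset.sum_eq_zero fun b _ =>
        Finset.sum_eq_zero fun e _ => ?_
      have h0 : ∀ l₁ l₂ : List X.Ins, (if dd.1 = 0 then corrZ A P hD 0 ((m, a) :: l₁ ++ [(0, b)])
          else 0) * (if dd.2 = 0 then corrZ A P hD 0 ((0, e) :: l₂ ++ [x, y]) else 0) = 0 := by
        intro l₁ l₂
        rcases add_eq_zero_nat hd dd hdd with h | h
        · rw [if_neg h, zero_mul]
        · rw [if_neg h, mul_zero]
      simp only [h0]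
      rw [splitSum_zero, mul_zero]

end Vale.Agent.P269.H133
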