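import Vale.Agent.P269.H727.Main
import Vale.Agent.P269.H133.DegZero

/-!
# P269: uniqueness of the Gromov-Witten theory of a threefold with `c_1·d < 0` for all `d ≠ 0`
-/

namespace Vale.Agent.P269.H133

open Vale.Agent.P269 Cohomology GWTheory

variable {X : Cohomology}

theorem derive_eq_zero_of_length {T : X.Ins → (X.Ins → ℂ) → ℂ} (hT : EvenOp X T)
    {F : List X.Ins → ℂ} {l : List X.Ins}
    (h : ∀ l' : List X.Ins, l'.length = l.length → F l' = 0) : X.derive T F l = 0 := by
  rw [derive_congr (F' := fun _ => 0) h]
  exact derive_zero hT l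

/-- A graded symmetric function satisfying the string equation and supported in negative weight
vanishes. -/
theorem vanish_neg (hX : X.LowDegree) {F : List X.Ins → ℂ} (hF : GSymm F)
    (hs : ∀ l, F ((0, X.one) :: l) = X.derive X.low F l) {w : ℤ} (hw : w < 0)
    (hwt : ∀ l, F l ≠ 0 → X.wts l = w) (l : List X.Ins) : F l = 0 := by
  have key : ∀ n : ℕ, ∀ l : List X.Ins, l.length = n → F l = 0 := by
    intro n
    induction n with
    | zero =>
      intro l hl
      by_contra h
      have := hwt l h
      rw [List.length_eq_zero_iff] at hl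
      subst hl
      rw [wts_nil] at this
      omega
    | succ n ih =>
      intro l hl
      by_contra h
      have h1 := hwt l h
      have h2 : (0, X.one) ∈ l := by
        by_contra h3
        have := wts_nonneg hX l h3
        omega
      obtain ⟨l₁, l₂, rfl⟩ := List.append_of_mem h2
      rw [hF.move_even l₁ _ (by simp [par, X.p_one, X.q_one]), hs] at h
      apply h
      apply derive_eq_zero_of_length low_even
      intro l' hl'
      apply ih
      simp at hl hl'
      omega
  exact key _ l rfl

/-- A graded symmetric function of weight `0` satisfying the homogeneous string, dilaton and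
divisor equations, and vanishing at the empty list, vanishes, provided that all classes of
degree `2` are multiples of `c_1 ≠ 0`. -/
theorem vanish_zero (hX : X.LowDegree) {h : X.I} (hh : ∀ a, X.p a + X.q a = 2 → a = h)
    (hR : X.R X.one h ≠ 0) {F : List X.Ins → ℂ} (hF : GSymm F) (hnil : F [] = 0)
    (hs : ∀ l, F ((0, X.one) :: l) = X.derive X.low F l)
    (k : ℕ → ℂ) (hd : ∀ l, F ((1, X.one) :: l) = k l.length * F l)
    (hv : ∀ l, ∑ b, X.R X.one b * F ((0, b) :: l) = X.derive X.lowR F l)
    (hwt : ∀ l, F l ≠ 0 → X.wts l = 0) (l : List X.Ins) : F l = 0 := by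
  have hR' : ∀ b, b ≠ h → X.R X.one b = 0 := by
    intro b hb
    by_contra h1
    have h2 := X.R_deg _ _ h1
    rw [X.p_one, X.q_one] at h2
    exact hb (hh b (by omega))
  have key : ∀ n : ℕ, ∀ l : List X.Ins, l.length = n → F l = 0 := by
    intro n
    induction n with
    | zero =>
      intro l hl
      rw [List.length_eq_zero_iff] at hl
      subst hl
      exact hnil
    | succ n ih =>
      intro l hl
      by_contra h0
      by_cases h2 : (0, X.one) ∈ l
      · obtain ⟨l₁, l₂, rfl⟩ := List.append_of_mem h2
        rw [hF.move_even l₁ _ (by simp [par, X.p_one, X.q_one]), hs] at h0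
        apply h0
        apply derive_eq_zero_of_length low_even
        intro l' hl'
        apply ih
        simp at hl hl'
        omega
      · have h1 := hwt l h0
        obtain ⟨x, l, rfl⟩ := List.exists_cons_of_length_eq_add_one hl
        rw [List.mem_cons, not_or] at h2
        have h3 := wts_nonneg hX l h2.2
        have h4 : 0 ≤ X.wts [x] := wts_nonneg hX [x] (by simpa using h2.1)
        rw [wts_cons, wts_nil] at h4
        rw [wts_cons] at h1
        have h5 : X.wt x = 0 := by omega
        have hln : l.length = n := by simpa using hl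
        obtain ⟨m, a⟩ := x
        unfold wt at h5
        simp only at h5
        have h6 : (m = 1 ∧ a = X.one) ∨ (m = 0 ∧ a = h) := by
          rcases Nat.eq_zero_or_pos m with hm | hm
          · exact Or.inr ⟨hm, hh a (by omega)⟩
          · exact Or.inl ⟨by omega, hX a (by omega)⟩
        rcases h6 with ⟨rfl, rfl⟩ | ⟨rfl, rfl⟩
        · rw [hd, ih l hln, mul_zero] at h0
          exact h0 rfl
        · have h7 := hv l
          rw [derive_eq_zero_of_length lowR_even (fun l' hl' => ih l' (by omega)),
            Finset.sum_eq_single a (fun b _ hb => by rw [hR' b hb, zero_mul])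
              (fun h => absurd (Finset.mem_univ _) h)] at h7
          exact (mul_ne_zero hR h0) h7
  exact key _ l rfl

variable {B : Type} [AddCommMonoid B] [DecidableEq B] [Finset.HasAntidiagonal B]

/-- If the expected dimension is negative and `(g,d) ≠ (0,0)` then there are no invariants. -/
theorem corr_eq_zero (hX : X.LowDegree) (G : GWTheory X B) {g : ℕ} {d : B}
    (hgd : ¬ (g = 0 ∧ d = 0)) (hc : G.vdim g d < 0) (l : List X.Ins) : G.corr g d l = 0 := by
  refine vanish_neg hX (fun l₁ x y l₂ => G.swap g d l₁ x y l₂) (fun l => ?_)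
    (w := 2 * G.vdim g d) (by omega) (fun l h => G.wts_of_ne_zero h) l
  rw [G.string, if_neg hgd, add_zero]

/-- Two theories with the same `∫ c_1 c_{D-1}` and the same constant `⟨⟩_{g,0}` have the same
degree-zero invariants in genus `g`, if `(1-g)(D-3) = 0`. -/
theorem corr_zero_unique (hX : X.LowDegree) {g : ℕ} (hD : (1 - (g : ℤ)) * (X.D - 3) = 0) {h : X.I}
    (hh : ∀ a, X.p a + X.q a = 2 → a = h) (hR : X.R X.one h ≠ 0) (G : GWTheory X B)
    {B' : Type} [AddCommMonoid B'] [DecidableEq B'] [Finset.HasAntidiagonal B']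
    (G' : GWTheory X B') (hc : G.c1cD = G'.c1cD)
    (hN : 2 ≤ g → G.corr g 0 [] = G'.corr g 0 []) (l : List X.Ins) :
    G.corr g 0 l = G'.corr g 0 l := by
  have hsub : ∀ (T : X.Ins → (X.Ins → ℂ) → ℂ) (_ : EvenOp X T) (l : List X.Ins),
      X.derive T (fun l => G.corr g 0 l - G'.corr g 0 l) l =
        X.derive T (G.corr g 0) l - X.derive T (G'.corr g 0) l := by
    intro T hT l
    have : (fun l => G.corr g 0 l - G'.corr g 0 l) =
        fun l => G.corr g 0 l + (-1) * G'.corr g 0 l := by
      funext l
      ring
    rw [this, derive_add hT, derive_smul hT]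
    ring
  have hv0 : ∀ {B : Type} [AddCommMonoid B] [DecidableEq B] [Finset.HasAntidiagonal B]
      (G : GWTheory X B) (l : List X.Ins), G.corr g 0 l ≠ 0 → X.wts l = 0 := by
    intro B _ _ _ G l h
    rw [G.wts_of_ne_zero h]
    unfold GWTheory.vdim
    rw [hD, map_zero]
    norm_num
  have := vanish_zero hX hh hR (F := fun l => G.corr g 0 l - G'.corr g 0 l)
    (fun l₁ x y l₂ => ?_) ?_ (fun l => ?_) (fun n => 2 * g - 2 + n) (fun l => ?_) (fun l => ?_)
    (fun l hl => ?_) l
  · exact sub_eq_zero.mp this
  · have h1 := G.swap g 0 l₁ x y l₂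
    have h2 := G'.swap g 0 l₁ x y l₂
    linear_combination h1 - h2
  · by_cases hg : 2 ≤ g
    · rw [hN hg, sub_self]
    · rw [G.unstable g [] (by simp; omega), G'.unstable g [] (by simp; omega), sub_self]
  · rw [hsub _ low_even]
    have h1 := G.string g 0 l
    have h2 := G'.string g 0 l
    simp only [and_true] at h1 h2
    linear_combination h1 - h2
  · have h1 := G.dilaton g 0 l
    have h2 := G'.dilaton g 0 l
    simp only [true_and] at h1 h2
    linear_combination h1 - h2
  · rw [hsub _ lowR_even]
    have h1 := G.divisor g 0 l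
    have h2 := G'.divisor g 0 l
    simp only [and_true, true_and, map_zero, Int.cast_zero, zero_mul, zero_add] at h1 h2
    rw [hc] at h1
    simp only [mul_sub, Finset.sum_sub_distrib]
    linear_combination h1 - h2
  · by_cases h1 : G.corr g 0 l = 0
    · apply hv0 G'
      intro h2
      rw [h1, h2, sub_zero] at hl
      exact hl rfl
    · exact hv0 G l h1

theorem corrPos_nil (A : IntData X) (P : PosData X) (hD1 : 1 ≤ X.D) (hD : X.D = 3) {g : ℕ}
    (hg : 2 ≤ g) : corrPos A P hD1 g [] = P.N g := by
  unfold corrPos
  rw [if_neg (by omega), if_pos hD]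
  have h1 : (Jpt A).J [] = 1 := Jpt_nil A
  simp [tens, Wg, W_nil, cgn, h1]

/-- If `D ≥ 3`, `c_1·d < -(D-3)` for all `d ≠ 0` and the classes of degree `2` are multiples of
`c_1 ≠ 0`, every system of Gromov-Witten invariants is given by the explicit degree-zero formulas
(for `D ≥ 4`: except possibly for the invariants with `(g,d) = (0,0)`). -/
theorem corr_explicit (hX : X.LowDegree) (hD : 3 ≤ X.D) (hD1 : 1 ≤ X.D) {h : X.I}
    (hh : ∀ a, X.p a + X.q a = 2 → a = h) (hR : X.R X.one h ≠ 0) (G : GWTheory X B)
    (hneg : ∀ d, d ≠ 0 → G.c1 d < - ((X.D : ℤ) - 3)) (A : IntData X) (P : PosData X)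
    (hc : G.c1cD = c1cD A P hD1) (hN : X.D = 3 → ∀ g, 2 ≤ g → P.N g = G.corr g 0 [])
    (g : ℕ) (d : B) (l : List X.Ins) (hgd : X.D = 3 ∨ ¬ (g = 0 ∧ d = 0)) :
    G.corr g d l = if d = 0 then corrZ A P hD1 g l else 0 := by
  have hDpos : (0 : ℤ) ≤ (X.D : ℤ) - 3 := by omega
  by_cases hd : d = 0
  · subst hd
    rw [if_pos rfl]
    by_cases h0 : (1 - (g : ℤ)) * (X.D - 3) = 0
    · have := corr_zero_unique hX h0 hh hR G (degZero A P hD1 0) hc (fun hg => ?_) l
      · rw [this]
        simp [degZero]
      · have hD3 : X.D = 3 := by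
          rcases mul_eq_zero.mp h0 with h | h
          · omega
          · omega
        rw [← hN hD3 g hg]
        have h1 : (degZero A P hD1 0).corr g 0 [] = corrZ A P hD1 g [] := by simp [degZero]
        rw [h1, corrZ, if_neg (by omega), corrPos_nil A P hD1 hD3 hg]
    · have hD3 : X.D ≠ 3 := by
        intro h
        apply h0
        rw [h]
        simp
      have hg0 : g ≠ 0 := by
        intro h
        rcases hgd with h' | h'
        · exact hD3 h'
        · exact h' ⟨h, rfl⟩
      have hg1 : g ≠ 1 := by
        rintro rfl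
        exact h0 (by simp)
      rw [corr_eq_zero hX G (fun h => hg0 h.1)]
      · rw [corrZ, if_neg hg0, corrPos, if_neg hg1, if_neg hD3]
      · unfold GWTheory.vdim
        rw [map_zero, add_zero]
        have h2 : (1 - (g : ℤ)) < 0 := by omega
        have h3 : (0 : ℤ) < X.D - 3 := by omega
        exact mul_neg_of_neg_of_pos h2 h3
  · rw [if_neg hd]
    refine corr_eq_zero hX G (fun h => hd h.2) ?_ l
    unfold GWTheory.vdim
    have h1 := hneg d hd
    have h2 : (1 - (g : ℤ)) * (X.D - 3) ≤ 1 * (X.D - 3) :=
      mul_le_mul_of_nonneg_right (by omega) hDpos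
    omega

end Vale.Agent.P269.H133
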